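import Vale.Agent.Helper17.KTV.ThreeRow

/-!
# P335, general graphs, module M2a: the three-vertex fibre of a graph with prescribed
degrees is a three-row binary table with one extra column

For three distinct vertices `rows 0, rows 1, rows 2` of a graph `G` on `Fin n` the table
`enc rows G` has the three vertices as rows; its columns are the other vertices (entry: is the
row vertex adjacent to the column vertex) and one extra column whose entry in row `r` says
that the two *other* row vertices are NOT adjacent.  On the set of graphs with a fixed degree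
vector and a fixed induced graph off the three vertices, `enc` is a bijection onto the set of
all binary tables with fixed margins, and forgetting two of the three vertices corresponds to
forgetting two of the three rows.
-/

namespace KTV.H13G

open Finset Classical

variable {n : ℕ}

/-- the graphs on `Fin n` with degree vector `d` -/
noncomputable def gOmega (n : ℕ) (d : Fin n → ℕ) : Finset (SimpleGraph (Fin n)) :=
  univ.filter fun G => ∀ i, G.degree i = d i

/-- the label `G` with the vertices of `S` deleted -/
def offLab (S : Finset (Fin n)) (G : SimpleGraph (Fin n)) : Fin n → Fin n → Prop :=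
  fun x y => x ∉ S ∧ y ∉ S ∧ G.Adj x y

/-- indicator of a proposition, as a natural number -/
noncomputable def ind (p : Prop) : ℕ := if p then 1 else 0

theorem ind_not (p : Prop) : ind (¬ p) + ind p = 1 := by
  unfold ind; by_cases h : p <;> simp [h]

theorem ind_congr {p q : Prop} (h : p ↔ q) : ind p = ind q := by
  unfold ind; simp [h]

theorem card_filter_ind {α : Type*} (s : Finset α) (p : α → Prop) [DecidablePred p] :
    (s.filter p).card = ∑ a ∈ s, ind (p a) := by
  rw [Finset.card_filter]
  refine Finset.sum_congr rfl fun a _ => ?_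
  unfold ind; by_cases h : p a <;> simp [h]

theorem sum_fin3_shift (r : Fin 3) (f : Fin 3 → ℕ) :
    ∑ j, f j = f r + f (r + 1) + f (r + 2) := by
  rw [Fin.sum_univ_three]
  fin_cases r
  · rfl
  · show f 0 + f 1 + f 2 = f 1 + f 2 + f 0
    omega
  · show f 0 + f 1 + f 2 = f 2 + f 0 + f 1
    omega

theorem fin3_a : ∀ r : Fin 3, r + 1 + 1 = r + 2 := by decide
theorem fin3_b : ∀ r : Fin 3, r + 1 + 2 = r := by decide
theorem fin3_c : ∀ r : Fin 3, r + 2 + 1 = r := by decide
theorem fin3_d : ∀ r : Fin 3, r + 2 + 2 = r + 1 := by decide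

/-- degree as a plain count -/
theorem degree_eq (G : SimpleGraph (Fin n)) (x : Fin n) :
    G.degree x = ∑ y : Fin n, ind (G.Adj x y) := by
  rw [← card_filter_ind, ← SimpleGraph.card_neighborFinset_eq_degree]
  congr 1
  ext y
  simp

theorem mem_gOmega {d : Fin n → ℕ} {G : SimpleGraph (Fin n)} :
    G ∈ gOmega n d ↔ ∀ i, G.degree i = d i := by
  unfold gOmega; simp


theorem sum_subtype_ind (p q : Fin n → Prop) [DecidablePred p] :
    ∑ x : {x // p x}, ind (q x.1) = ∑ y : Fin n, ind (p y ∧ q y) := by
  rw [← Finset.sum_subtype (univ.filter p) (by simp) (fun y => ind (q y)), Finset.sum_filter]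
  refine Finset.sum_congr rfl fun y _ => ?_
  unfold ind; by_cases h : p y <;> simp [h]

theorem sum_rowSum_eq_sum_colSum {α β : Type*} [Fintype α] [DecidableEq α] [Fintype β]
    [DecidableEq β] (x : Tab α β) : ∑ a, rowSum x a = ∑ j, colSum x j := by
  unfold rowSum colSum
  simp only [Finset.card_filter]
  exact Finset.sum_comm

section Enc

variable (rows : Fin 3 → Fin n)

theorem rowSet_eq_image : rowSet rows = univ.image rows := by
  ext y
  rw [mem_rowSet, Finset.mem_image]
  simp

/-- split a sum over all vertices into the three rows and the rest -/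
theorem sum_split (hinj : Function.Injective rows) (f : Fin n → ℕ) :
    ∑ y : Fin n, f y
      = ∑ r : Fin 3, f (rows r) + ∑ y : Fin n, (if y ∉ rowSet rows then f y else 0) := by
  have h1 : ∑ y : Fin n, f y = ∑ y : Fin n, ((if y ∈ rowSet rows then f y else 0)
      + (if y ∉ rowSet rows then f y else 0)) := by
    refine Finset.sum_congr rfl fun y _ => ?_
    by_cases h : y ∈ rowSet rows <;> simp [h]
  rw [h1, Finset.sum_add_distrib]
  congr 1
  rw [← Finset.sum_filter, Finset.filter_mem_eq_inter, Finset.univ_inter, rowSet_eq_image,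
    Finset.sum_image (fun a _ b _ h => hinj h)]

/-- the columns of the table: the vertices off the three rows, and one extra column -/
abbrev Col (rows : Fin 3 → Fin n) : Type := Option {x : Fin n // x ∉ rowSet rows}

/-- the three-row table of a graph: entry `(r, some x)` says that `rows r` is adjacent to
`x`; entry `(r, none)` says that the two other row vertices are NOT adjacent -/
noncomputable def enc (G : SimpleGraph (Fin n)) : Tab (Fin 3) (Col rows) :=
  fun r c => match c with
    | some x => decide (G.Adj (rows r) x.1)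
    | none => decide (¬ G.Adj (rows (r + 1)) (rows (r + 2)))

theorem enc_some (G : SimpleGraph (Fin n)) (r : Fin 3) (x : {x : Fin n // x ∉ rowSet rows}) :
    enc rows G r (some x) = true ↔ G.Adj (rows r) x.1 := by simp [enc]

theorem enc_none (G : SimpleGraph (Fin n)) (r : Fin 3) :
    enc rows G r none = true ↔ ¬ G.Adj (rows (r + 1)) (rows (r + 2)) := by simp [enc]

/-- the number of edges of `G` inside the three rows -/
noncomputable def tin (G : SimpleGraph (Fin n)) : ℕ :=
  ∑ r : Fin 3, ind (G.Adj (rows (r + 1)) (rows (r + 2)))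

/-- the number of neighbours of `x` off the three rows -/
noncomputable def degOff (G : SimpleGraph (Fin n)) (x : Fin n) : ℕ :=
  ∑ y : Fin n, ind (y ∉ rowSet rows ∧ G.Adj x y)

theorem rowSum_enc (G : SimpleGraph (Fin n)) (r : Fin 3) :
    rowSum (enc rows G) r
      = ind (¬ G.Adj (rows (r + 1)) (rows (r + 2))) + degOff rows G (rows r) := by
  unfold rowSum
  rw [card_filter_ind, Fintype.sum_option, degOff, ← sum_subtype_ind]
  congr 1
  · exact ind_congr (enc_none rows G r)
  · exact Finset.sum_congr rfl fun x _ => ind_congr (enc_some rows G r x)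

theorem colSum_enc_none (G : SimpleGraph (Fin n)) :
    colSum (enc rows G) none = ∑ r : Fin 3, ind (¬ G.Adj (rows (r + 1)) (rows (r + 2))) := by
  unfold colSum
  rw [card_filter_ind]
  exact Finset.sum_congr rfl fun r _ => ind_congr (enc_none rows G r)

theorem colSum_enc_some (G : SimpleGraph (Fin n)) (x : {x : Fin n // x ∉ rowSet rows}) :
    colSum (enc rows G) (some x) = ∑ r : Fin 3, ind (G.Adj (rows r) x.1) := by
  unfold colSum
  rw [card_filter_ind]
  exact Finset.sum_congr rfl fun r _ => ind_congr (enc_some rows G r x)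

/-- (F2) the extra column counts the non-edges inside the three rows -/
theorem colSum_none_add_tin (G : SimpleGraph (Fin n)) :
    colSum (enc rows G) none + tin rows G = 3 := by
  rw [colSum_enc_none, tin, ← Finset.sum_add_distrib]
  simp [ind_not]

theorem degree_split (hinj : Function.Injective rows) (G : SimpleGraph (Fin n)) (x : Fin n) :
    G.degree x = ∑ r : Fin 3, ind (G.Adj x (rows r)) + degOff rows G x := by
  rw [degree_eq, sum_split rows hinj, degOff]
  congr 1
  refine Finset.sum_congr rfl fun y _ => ?_
  unfold ind; by_cases h : y ∈ rowSet rows <;> simp [h]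

/-- (F3) a column off the rows: its sum is the number of neighbours among the rows -/
theorem colSum_some_add_degOff (hinj : Function.Injective rows) (G : SimpleGraph (Fin n))
    (x : {x : Fin n // x ∉ rowSet rows}) :
    colSum (enc rows G) (some x) + degOff rows G x.1 = G.degree x.1 := by
  rw [colSum_enc_some, degree_split rows hinj]
  congr 1
  exact Finset.sum_congr rfl fun r _ => ind_congr (G.adj_comm _ _)

/-- (F1) a row: its sum plus the number of inner edges is the degree plus one -/
theorem rowSum_add_tin (hinj : Function.Injective rows) (G : SimpleGraph (Fin n)) (r : Fin 3) :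
    rowSum (enc rows G) r + tin rows G = G.degree (rows r) + 1 := by
  rw [rowSum_enc, degree_split rows hinj, tin,
    sum_fin3_shift r (fun r' => ind (G.Adj (rows (r' + 1)) (rows (r' + 2)))),
    sum_fin3_shift r (fun r' => ind (G.Adj (rows r) (rows r')))]
  simp only [fin3_a, fin3_b, fin3_c, fin3_d]
  have hloop : ind (G.Adj (rows r) (rows r)) = 0 := by simp [ind]
  have hsym : ind (G.Adj (rows (r + 2)) (rows r)) = ind (G.Adj (rows r) (rows (r + 2))) :=
    ind_congr (G.adj_comm _ _)
  have hn := ind_not (G.Adj (rows (r + 1)) (rows (r + 2)))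
  omega

end Enc

section Labels

theorem offLab_adj {S : Finset (Fin n)} {G G' : SimpleGraph (Fin n)}
    (h : offLab S G = offLab S G') {x y : Fin n} (hx : x ∉ S) (hy : y ∉ S) :
    G.Adj x y ↔ G'.Adj x y := by
  have e : offLab S G x y = offLab S G' x y := by rw [h]
  unfold offLab at e
  constructor
  · intro ha; exact (e.mp ⟨hx, hy, ha⟩).2.2
  · intro ha; exact (e.mpr ⟨hx, hy, ha⟩).2.2

theorem offLab_ext {S : Finset (Fin n)} {G G' : SimpleGraph (Fin n)}
    (h : ∀ x y, x ∉ S → y ∉ S → (G.Adj x y ↔ G'.Adj x y)) : offLab S G = offLab S G' := by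
  funext x y
  unfold offLab
  apply propext
  constructor
  · rintro ⟨hx, hy, ha⟩; exact ⟨hx, hy, (h x y hx hy).1 ha⟩
  · rintro ⟨hx, hy, ha⟩; exact ⟨hx, hy, (h x y hx hy).2 ha⟩

/-- deleting more vertices forgets more -/
theorem offLab_mono {S S' : Finset (Fin n)} (hSS : S ⊆ S') {G G' : SimpleGraph (Fin n)}
    (h : offLab S G = offLab S G') : offLab S' G = offLab S' G' :=
  offLab_ext fun _ _ hx hy => offLab_adj h (fun hm => hx (hSS hm)) (fun hm => hy (hSS hm))

end Labels

section Bijection

variable (rows : Fin 3 → Fin n)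

theorem degOff_congr {G G' : SimpleGraph (Fin n)}
    (h : offLab (rowSet rows) G = offLab (rowSet rows) G') {x : Fin n} (hx : x ∉ rowSet rows) :
    degOff rows G x = degOff rows G' x := by
  unfold degOff
  refine Finset.sum_congr rfl fun y _ => ind_congr ?_
  constructor
  · rintro ⟨hy, ha⟩; exact ⟨hy, (offLab_adj h hx hy).1 ha⟩
  · rintro ⟨hy, ha⟩; exact ⟨hy, (offLab_adj h hx hy).2 ha⟩

theorem sum_rowSum_enc (hinj : Function.Injective rows) {d : Fin n → ℕ}
    {G : SimpleGraph (Fin n)} (hG : G ∈ gOmega n d) :
    ∑ r : Fin 3, rowSum (enc rows G) r + 3 * tin rows G = ∑ r : Fin 3, d (rows r) + 3 := by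
  have h1 : ∑ r : Fin 3, (rowSum (enc rows G) r + tin rows G)
      = ∑ r : Fin 3, (d (rows r) + 1) :=
    Finset.sum_congr rfl fun r _ => by
      rw [rowSum_add_tin rows hinj G r, mem_gOmega.1 hG]
  rw [Finset.sum_add_distrib, Finset.sum_add_distrib] at h1
  simp only [Finset.sum_const, Finset.card_univ, Fintype.card_fin, smul_eq_mul, mul_one] at h1
  omega

/-- (B) all graphs with the same degrees and the same label off the three rows have tables
with the same margins -/
theorem margins_congr (hinj : Function.Injective rows) {d : Fin n → ℕ}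
    {G G' : SimpleGraph (Fin n)} (hG : G ∈ gOmega n d) (hG' : G' ∈ gOmega n d)
    (h : offLab (rowSet rows) G = offLab (rowSet rows) G') :
    (∀ r, rowSum (enc rows G) r = rowSum (enc rows G') r) ∧
      (∀ j, colSum (enc rows G) j = colSum (enc rows G') j) := by
  have hsome : ∀ x : {x : Fin n // x ∉ rowSet rows},
      colSum (enc rows G) (some x) = colSum (enc rows G') (some x) := by
    intro x
    have h1 := colSum_some_add_degOff rows hinj G x
    have h2 := colSum_some_add_degOff rows hinj G' x
    rw [mem_gOmega.1 hG] at h1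
    rw [mem_gOmega.1 hG'] at h2
    have h3 := degOff_congr rows h x.2
    omega
  have hX : ∑ x : {x : Fin n // x ∉ rowSet rows}, colSum (enc rows G) (some x)
      = ∑ x : {x : Fin n // x ∉ rowSet rows}, colSum (enc rows G') (some x) :=
    Finset.sum_congr rfl fun x _ => hsome x
  have t1 := sum_rowSum_eq_sum_colSum (enc rows G)
  have t2 := sum_rowSum_eq_sum_colSum (enc rows G')
  rw [Fintype.sum_option] at t1 t2
  have r1 := sum_rowSum_enc rows hinj hG
  have r2 := sum_rowSum_enc rows hinj hG'
  have c1 := colSum_none_add_tin rows G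
  have c2 := colSum_none_add_tin rows G'
  have ht : tin rows G = tin rows G' := by omega
  refine ⟨fun r => ?_, fun j => ?_⟩
  · have f1 := rowSum_add_tin rows hinj G r
    have f2 := rowSum_add_tin rows hinj G' r
    rw [mem_gOmega.1 hG] at f1
    rw [mem_gOmega.1 hG'] at f2
    omega
  · cases j with
    | none => omega
    | some x => exact hsome x

theorem fin3_third : ∀ r r' : Fin 3, r ≠ r' →
    ∃ k : Fin 3, (r = k + 1 ∧ r' = k + 2) ∨ (r = k + 2 ∧ r' = k + 1) := by decide

theorem fin3_ne1 : ∀ k : Fin 3, k ≠ k + 1 := by decide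
theorem fin3_ne2 : ∀ k : Fin 3, k ≠ k + 2 := by decide
theorem fin3_ne12 : ∀ k : Fin 3, k + 1 ≠ k + 2 := by decide
theorem fin3_only : ∀ k r : Fin 3, r ≠ k + 1 → r ≠ k + 2 → r = k := by decide

/-- (C) the label off the three rows and the table determine the graph -/
theorem enc_inj {G G' : SimpleGraph (Fin n)}
    (h : offLab (rowSet rows) G = offLab (rowSet rows) G')
    (he : enc rows G = enc rows G') : G = G' := by
  have hsome : ∀ (r : Fin 3) (y : Fin n), y ∉ rowSet rows →
      (G.Adj (rows r) y ↔ G'.Adj (rows r) y) := by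
    intro r y hy
    rw [← enc_some rows G r ⟨y, hy⟩, ← enc_some rows G' r ⟨y, hy⟩, he]
  have hnone : ∀ k : Fin 3,
      (G.Adj (rows (k + 1)) (rows (k + 2)) ↔ G'.Adj (rows (k + 1)) (rows (k + 2))) := by
    intro k
    rw [← not_iff_not, ← enc_none rows G k, ← enc_none rows G' k, he]
  ext x y
  by_cases hx : x ∈ rowSet rows
  · obtain ⟨r, rfl⟩ := (mem_rowSet rows x).1 hx
    by_cases hy : y ∈ rowSet rows
    · obtain ⟨r', rfl⟩ := (mem_rowSet rows y).1 hy
      by_cases hrr : r = r'
      · subst hrr
        simp
      · obtain ⟨k, ⟨rfl, rfl⟩ | ⟨rfl, rfl⟩⟩ := fin3_third r r' hrr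
        · exact hnone k
        · rw [G.adj_comm, G'.adj_comm]; exact hnone k
    · exact hsome r y hy
  · by_cases hy : y ∈ rowSet rows
    · obtain ⟨r', rfl⟩ := (mem_rowSet rows y).1 hy
      rw [G.adj_comm, G'.adj_comm]; exact hsome r' x hx
    · exact offLab_adj h hx hy

theorem fin3_no_swap : ∀ k k' : Fin 3, k + 2 = k' + 1 → k + 1 = k' + 2 → False := by decide
theorem fin3_cancel1 : ∀ k k' : Fin 3, k + 1 = k' + 1 → k = k' := by decide

/-- the relation generating the graph with a prescribed table -/
def decRel (G : SimpleGraph (Fin n)) (y : Tab (Fin 3) (Col rows)) (a b : Fin n) : Prop :=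
  (a ∉ rowSet rows ∧ b ∉ rowSet rows ∧ G.Adj a b) ∨
    (∃ r, a = rows r ∧ ∃ hb : b ∉ rowSet rows, y r (some ⟨b, hb⟩) = true) ∨
    (∃ k, a = rows (k + 1) ∧ b = rows (k + 2) ∧ y k none = false)

/-- the graph that agrees with `G` off the three rows and has table `y` -/
def dec (G : SimpleGraph (Fin n)) (y : Tab (Fin 3) (Col rows)) : SimpleGraph (Fin n) :=
  SimpleGraph.fromRel (decRel rows G y)

theorem rows_mem (r : Fin 3) : rows r ∈ rowSet rows := (mem_rowSet rows _).2 ⟨r, rfl⟩

theorem dec_off (G : SimpleGraph (Fin n)) (y : Tab (Fin 3) (Col rows)) {a b : Fin n}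
    (ha : a ∉ rowSet rows) (hb : b ∉ rowSet rows) : (dec rows G y).Adj a b ↔ G.Adj a b := by
  unfold dec
  rw [SimpleGraph.fromRel_adj]
  constructor
  · rintro ⟨-, h | h⟩
    · rcases h with ⟨-, -, h⟩ | ⟨r, rfl, -⟩ | ⟨k, rfl, -⟩
      · exact h
      · exact absurd (rows_mem rows r) ha
      · exact absurd (rows_mem rows _) ha
    · rcases h with ⟨-, -, h⟩ | ⟨r, rfl, -⟩ | ⟨k, rfl, -⟩
      · exact h.symm
      · exact absurd (rows_mem rows r) hb
      · exact absurd (rows_mem rows _) hb
  · intro h
    exact ⟨G.ne_of_adj h, Or.inl (Or.inl ⟨ha, hb, h⟩)⟩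

theorem dec_cross (hinj : Function.Injective rows) (G : SimpleGraph (Fin n))
    (y : Tab (Fin 3) (Col rows)) (r : Fin 3) (x : {x : Fin n // x ∉ rowSet rows}) :
    (dec rows G y).Adj (rows r) x.1 ↔ y r (some x) = true := by
  unfold dec
  rw [SimpleGraph.fromRel_adj]
  constructor
  · rintro ⟨-, h | h⟩
    · rcases h with ⟨h, -, -⟩ | ⟨r', hr, hb, h⟩ | ⟨k, -, hb, -⟩
      · exact absurd (rows_mem rows r) h
      · have : r = r' := hinj hr
        subst this
        exact h
      · exact absurd (hb ▸ rows_mem rows _) x.2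
    · rcases h with ⟨-, h, -⟩ | ⟨r', hr, -⟩ | ⟨k, hr, -⟩
      · exact absurd (rows_mem rows r) h
      · exact absurd (hr ▸ rows_mem rows _) x.2
      · exact absurd (hr ▸ rows_mem rows _) x.2
  · intro h
    refine ⟨fun e => x.2 (e ▸ rows_mem rows r), Or.inl (Or.inr (Or.inl ⟨r, rfl, x.2, h⟩))⟩

theorem dec_inner (hinj : Function.Injective rows) (G : SimpleGraph (Fin n))
    (y : Tab (Fin 3) (Col rows)) (k : Fin 3) :
    (dec rows G y).Adj (rows (k + 1)) (rows (k + 2)) ↔ y k none = false := by
  unfold dec
  rw [SimpleGraph.fromRel_adj]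
  constructor
  · rintro ⟨-, h | h⟩
    · rcases h with ⟨h, -, -⟩ | ⟨r', -, hb, -⟩ | ⟨k', h1, h2, h⟩
      · exact absurd (rows_mem rows _) h
      · exact absurd (rows_mem rows _) hb
      · have : k = k' := fin3_cancel1 k k' (hinj h1)
        subst this
        exact h
    · rcases h with ⟨h, -, -⟩ | ⟨r', -, hb, -⟩ | ⟨k', h1, h2, h⟩
      · exact absurd (rows_mem rows _) h
      · exact absurd (rows_mem rows _) hb
      · exact absurd (hinj h2) (fun e => fin3_no_swap k k' (hinj h1) e)
  · intro h
    exact ⟨fun e => fin3_ne12 k (hinj e), Or.inl (Or.inr (Or.inr ⟨k, rfl, rfl, h⟩))⟩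

theorem enc_dec (hinj : Function.Injective rows) (G : SimpleGraph (Fin n))
    (y : Tab (Fin 3) (Col rows)) : enc rows (dec rows G y) = y := by
  funext r c
  cases c with
  | none =>
    rw [Bool.eq_iff_iff, enc_none, dec_inner rows hinj]
    simp
  | some x =>
    rw [Bool.eq_iff_iff, enc_some, dec_cross rows hinj]

theorem offLab_dec (G : SimpleGraph (Fin n)) (y : Tab (Fin 3) (Col rows)) :
    offLab (rowSet rows) (dec rows G y) = offLab (rowSet rows) G :=
  offLab_ext fun _ _ hx hy => dec_off rows G y hx hy

/-- (D) every table with the margins of `enc rows G` is the table of a graph with the same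
degrees and the same label off the three rows -/
theorem dec_mem (hinj : Function.Injective rows) {d : Fin n → ℕ} {G : SimpleGraph (Fin n)}
    (hG : G ∈ gOmega n d) (y : Tab (Fin 3) (Col rows))
    (hr : ∀ r, rowSum y r = rowSum (enc rows G) r)
    (hc : ∀ j, colSum y j = colSum (enc rows G) j) : dec rows G y ∈ gOmega n d := by
  rw [mem_gOmega]
  have he := enc_dec rows hinj G y
  have c1 := colSum_none_add_tin rows G
  have c2 := colSum_none_add_tin rows (dec rows G y)
  rw [he, hc none] at c2
  intro i
  by_cases hi : i ∈ rowSet rows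
  · obtain ⟨r, rfl⟩ := (mem_rowSet rows i).1 hi
    have f1 := rowSum_add_tin rows hinj G r
    have f2 := rowSum_add_tin rows hinj (dec rows G y) r
    rw [he, hr r] at f2
    rw [mem_gOmega.1 hG] at f1
    omega
  · have f1 := colSum_some_add_degOff rows hinj G ⟨i, hi⟩
    have f2 := colSum_some_add_degOff rows hinj (dec rows G y) ⟨i, hi⟩
    rw [he, hc (some ⟨i, hi⟩)] at f2
    have f3 := degOff_congr rows (offLab_dec rows G y) hi
    rw [mem_gOmega.1 hG] at f1
    simp only at f1 f2
    omega

/-- (E) for graphs with the same degrees and the same label off the three rows: the labels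
off the two rows `rows (k+1)`, `rows (k+2)` agree iff the rows `k` of the tables agree -/
theorem pair_label_iff (hinj : Function.Injective rows) {d : Fin n → ℕ}
    {G G' : SimpleGraph (Fin n)} (hG : G ∈ gOmega n d) (hG' : G' ∈ gOmega n d)
    (h : offLab (rowSet rows) G = offLab (rowSet rows) G') (k : Fin 3) :
    offLab {rows (k + 1), rows (k + 2)} G = offLab {rows (k + 1), rows (k + 2)} G' ↔
      enc rows G k = enc rows G' k := by
  have hk1 : rows k ∉ ({rows (k + 1), rows (k + 2)} : Finset (Fin n)) := by
    simp only [Finset.mem_insert, Finset.mem_singleton, not_or]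
    exact ⟨fun e => fin3_ne1 k (hinj e), fun e => fin3_ne2 k (hinj e)⟩
  have hsub : ({rows (k + 1), rows (k + 2)} : Finset (Fin n)) ⊆ rowSet rows := by
    intro a ha
    simp only [Finset.mem_insert, Finset.mem_singleton] at ha
    rcases ha with rfl | rfl <;> exact rows_mem rows _
  constructor
  · intro hp
    have hsome : ∀ y : Fin n, y ∉ rowSet rows → (G.Adj (rows k) y ↔ G'.Adj (rows k) y) :=
      fun y hy => offLab_adj hp hk1 (fun hm => hy (hsub hm))
    have hdeg : degOff rows G (rows k) = degOff rows G' (rows k) := by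
      unfold degOff
      refine Finset.sum_congr rfl fun y _ => ind_congr ?_
      constructor
      · rintro ⟨hy, ha⟩; exact ⟨hy, (hsome y hy).1 ha⟩
      · rintro ⟨hy, ha⟩; exact ⟨hy, (hsome y hy).2 ha⟩
    have hrow := (margins_congr rows hinj hG hG' h).1 k
    rw [rowSum_enc, rowSum_enc, hdeg] at hrow
    have hind : ind (¬ G.Adj (rows (k + 1)) (rows (k + 2)))
        = ind (¬ G'.Adj (rows (k + 1)) (rows (k + 2))) := by omega
    have hnone : (¬ G.Adj (rows (k + 1)) (rows (k + 2))) ↔
        (¬ G'.Adj (rows (k + 1)) (rows (k + 2))) := by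
      unfold ind at hind
      by_cases h1 : G.Adj (rows (k + 1)) (rows (k + 2)) <;>
        by_cases h2 : G'.Adj (rows (k + 1)) (rows (k + 2)) <;> simp_all
    funext c
    cases c with
    | none => rw [Bool.eq_iff_iff, enc_none, enc_none]; exact hnone
    | some x => rw [Bool.eq_iff_iff, enc_some, enc_some]; exact hsome x.1 x.2
  · intro he
    have hsome : ∀ y : Fin n, y ∉ rowSet rows → (G.Adj (rows k) y ↔ G'.Adj (rows k) y) := by
      intro y hy
      rw [← enc_some rows G k ⟨y, hy⟩, ← enc_some rows G' k ⟨y, hy⟩, he]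
    refine offLab_ext fun x y hx hy => ?_
    have key : ∀ a : Fin n, a ∉ ({rows (k + 1), rows (k + 2)} : Finset (Fin n)) →
        a ∈ rowSet rows → a = rows k := by
      intro a ha hm
      obtain ⟨r, rfl⟩ := (mem_rowSet rows a).1 hm
      simp only [Finset.mem_insert, Finset.mem_singleton, not_or] at ha
      rw [fin3_only k r (fun e => ha.1 (by rw [e])) (fun e => ha.2 (by rw [e]))]
    by_cases hxT : x ∈ rowSet rows
    · have hxk := key x hx hxT
      subst hxk
      by_cases hyT : y ∈ rowSet rows
      · have hyk := key y hy hyT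
        rw [hyk]
        simp
      · exact hsome y hyT
    · by_cases hyT : y ∈ rowSet rows
      · have hyk := key y hy hyT
        subst hyk
        rw [G.adj_comm, G'.adj_comm]
        exact hsome x hxT
      · exact offLab_adj h hxT hyT

end Bijection

end KTV.H13G
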